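import Vale.Agent.P281V55.Defs
import Vale.Agent.P281Z.Top4

/-!
# N281: boundaries with arbitrary singularities, log canonical pairs, orbifold morphisms
-/

open scoped Topology Manifold ContDiff ENNReal
open Set Filter Vale.Agent.P281 Vale.Agent.P281V55
open Vale.Agent.P281.H713.TZ.S (Cm)

noncomputable section

namespace Vale.Agent.N281

section One

variable (E : Type) [NormedAddCommGroup E] [NormedSpace ℂ E] {X X' : Type} [TopologicalSpace X]
  [ChartedSpace E X] [TopologicalSpace X'] [ChartedSpace E X']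

/-- `∑ Δ(D) D` is a rational boundary: a finite sum of prime divisors, with rational coefficients
in `[0, 1]`; nothing is assumed on the singularities of the support. -/
def IsBoundary (Δ : Set X → ℝ) : Prop :=
  {D | Δ D ≠ 0}.Finite ∧ (∀ D, Δ D ≠ 0 → J.IsPrime E D) ∧ ∀ D, ∃ q : ℚ, Δ D = q ∧ 0 ≤ q ∧ q ≤ 1

/-- the Jacobian determinant at `z` of `u : X' → X`, in the charts at `x` and at `u x` -/
def jac (u : X' → X) (x z : X') : ℂ :=
  (fderiv ℂ (fun v => chartAt E (u x) (u ((chartAt E x).symm v))) (chartAt E x z)).det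

/-- `k` is the coefficient of `D'` in the relative canonical divisor `K_{X'/X}`: near some point of
`D'` the Jacobian determinant of `u` is `e ^ k * unit`, where `e` is a local equation of `D'`. -/
def IsJacOrd (u : X' → X) (D' : Set X') (k : ℕ) : Prop :=
  ∃ x ∈ D', ∃ e w, J.IsLocalEq E D' e x ∧ J.HolAt E w x ∧ w x ≠ 0 ∧
    ∀ᶠ z in 𝓝 x, jac E u x z = e z ^ k * w z

/-- `(X, Δ)` is log canonical along `S`: for every proper bimeromorphic morphism `u : X' → X` from a
connected manifold, and every prime divisor `D'` of `X'` whose image meets `S`, the discrepancy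
`ord_{D'} K_{X'/X} - ord_{D'} u^* Δ` is at least `-1`. -/
def IsLC (Δ : Set X → ℝ) (S : Set X) : Prop :=
  ∀ (X' : Type) [TopologicalSpace X'] [ChartedSpace E X'] [T2Space X'] [ConnectedSpace X']
    [IsManifold 𝓘(ℂ, E) ω X'] (u : X' → X), IsBimer E u → ∀ (D' : Set X') (k : ℕ),
    J.IsPrime E D' → (∃ x ∈ D', u x ∈ S) → IsJacOrd E u D' k →
      -1 ≤ k - ∑ᶠ D, Δ D * ord E E u D' D

/-- SNC boundaries are log canonical, and so are the convex combinations of log canonical
boundaries. -/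
def LcOK : Prop :=
  ∀ (X : Type) [TopologicalSpace X] [ChartedSpace E X] [IsManifold 𝓘(ℂ, E) ω X] (Δ : Set X → ℝ)
    (S : Set X), (J.IsSNC E Δ → IsLC E Δ S) ∧ ∀ (Δ' : Set X → ℝ) (t : ℝ), IsBoundary E Δ →
      IsBoundary E Δ' → 0 ≤ t → t ≤ 1 → IsLC E Δ S → IsLC E Δ' S →
      IsLC E (fun D => t * Δ D + (1 - t) * Δ' D) S

end One

section Two

variable (E E' : Type) [NormedAddCommGroup E] [NormedSpace ℂ E] [NormedAddCommGroup E']
  [NormedSpace ℂ E'] {X Y : Type} [TopologicalSpace X] [ChartedSpace E X] [TopologicalSpace Y]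
  [ChartedSpace E' Y]

/-- `f : (X, Δ) → (Y, Γ)` is an orbifold morphism: `ord_D (f^* G) m_Δ(D) ≥ m_Γ(G)` whenever
`ord_D (f^* G) > 0`. -/
def IsOrbMor (f : X → Y) (Δ : Set X → ℝ) (Γ : Set Y → ℝ) : Prop :=
  ∀ D G, J.IsPrime E D → J.IsPrime E' G → 0 < ord E E' f D G →
    mult Γ G ≤ (ord E E' f D G : ℝ≥0∞) * mult Δ D

/-- For `h : Z → W` holomorphic, with `Z` connected: `ord` is well defined if `h` is onto; the
spaces of sections on `W` and on `Z` are finite dimensional if `W`, `Z` are compact. -/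
def WellDef : Prop :=
  ∀ (Z W : Type) [TopologicalSpace Z] [ChartedSpace E Z] [TopologicalSpace W] [ChartedSpace E' W]
    [IsManifold 𝓘(ℂ, E) ω Z] [IsManifold 𝓘(ℂ, E') ω W] [ConnectedSpace Z] (h : Z → W),
    ContMDiff 𝓘(ℂ, E) 𝓘(ℂ, E') ω h →
    (Function.Surjective h → ∀ D G, J.IsPrime E D → J.IsPrime E' G → ∃! k, IsOrd E E' h D G k) ∧
    (T2Space Z → CompactSpace Z → T2Space W → CompactSpace W →
      FinDim E' (eqX E' (X := W)) ∧ FinDim E (eqR E' h))

end Two

section Kappa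

variable (n p d : ℕ) {X Y F : Type} [tX : TopologicalSpace X] [cX : ChartedSpace (Cm n) X]
  [tY : TopologicalSpace Y] [cY : ChartedSpace (Cm p) Y] [TopologicalSpace F]
  [ChartedSpace (Cm d) F]

/-- `κ(X, K_X + Δ)` -/
def kX (Δ : Set X → ℝ) : WithBot ℕ∞ := kappa (Cm n) (eqX (Cm n)) Δ

/-- `κ(F, K_F + Δ|F)`, for `i : F → X` -/
def kF (i : F → X) (Δ : Set X → ℝ) : WithBot ℕ∞ := kappa (Cm d) (eqR (Cm n) i) Δ

/-- `κ(f | Δ)` -/
def kB (f : X → Y) (Δ : Set X → ℝ) : WithBot ℕ∞ :=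
  kappaB (Cm n) (Cm p) ⟨X, Y, tX, tY, cX, cY, f, Δ⟩

end Kappa

end Vale.Agent.N281
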