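import Vale.Agent.N281.Ord

/-!
# N281: SNC boundaries are log canonical
-/

open scoped Manifold ContDiff ENNReal
open Filter Topology Set Function
open Vale.Agent.P272.K (Chart At jacM)
open Vale.Agent.P277Z Vale.Agent.P281 Vale.Agent.P281Z Vale.Agent.P281Z.Nt Vale.Agent.P281V55
open Vale.Agent.P277Z.Slc (Ind LEq Snc)
open Vale.Agent.P281.H713.TZ.S (Cm)
open Vale.Agent.P281Z.Md (Ca mn dv ca_of mn_left hol_mn anV_comp)
open Vale.Agent.P281.H511.Gen (sm subset_closure_sm dif_ne_of_mem_sm)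

set_option linter.unusedSectionVars false

noncomputable section

namespace Vale.Agent.N281

theorem freq_all {T κ : Type} [TopologicalSpace T] [Fintype κ] {D : Set T} {P : κ → T → Prop}
    {x : T} (hx : x ∈ D)
    (h : ∀ l, ∀ᶠ y in 𝓝 x, y ∈ D → ∃ᶠ z in 𝓝 y, z ∈ D ∧ ∀ᶠ w in 𝓝 z, P l w) :
    ∃ᶠ z in 𝓝 x, z ∈ D ∧ ∀ l, ∀ᶠ w in 𝓝 z, P l w := by
  classical
  have key : ∀ S : Finset κ, ∃ᶠ z in 𝓝 x, z ∈ D ∧ ∀ l ∈ S, ∀ᶠ w in 𝓝 z, P l w := fun S => by
    induction S using Finset.induction_on with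
    | empty => exact (frequently_pure.2 ⟨hx, by simp⟩).filter_mono (pure_le_nhds x)
    | insert a S _ ih =>
      refine frequently_frequently_nhds.1 ((ih.and_eventually (h a)).mono fun y m => ?_)
      refine ((m.2 m.1.1).and_eventually (S.eventually_all.2 fun l hl =>
        (m.1.2 l hl).eventually_nhds)).mono fun z k => ⟨k.1.1, fun l hl => ?_⟩
      rcases Finset.mem_insert.1 hl with rfl | hl
      exacts [k.1.2, k.2 l hl]
  exact (key Finset.univ).mono fun z k => ⟨k.1, fun l => k.2 l (Finset.mem_univ l)⟩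

theorem fsum {X : Type} {Δ : Set X → ℝ} [Fintype {D : Set X | Δ D ≠ 0}] (r : Set X → ℝ) :
    ∑ᶠ D, Δ D * r D = ∑ l : {D : Set X | Δ D ≠ 0}, Δ l * r l := by
  classical
  rw [finsum_eq_sum_of_support_subset (s := {D : Set X | Δ D ≠ 0}.toFinset) _
    fun D h => by simpa using left_ne_zero_of_mul h]
  exact Finset.sum_subtype _ (by simp) fun D => Δ D * r D

variable {n : ℕ} {X : Type} [TopologicalSpace X] [ChartedSpace (Cm n) X]
  [IsManifold 𝓘(ℂ, Cm n) ω X] {Δ : Set X → ℝ}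

theorem bimer_surj {X' : Type} [TopologicalSpace X'] [ChartedSpace (Cm n) X'] {u : X' → X}
    (h : IsBimer (Cm n) u) : Surjective u := by
  obtain ⟨-, h1, B, w, -, h2, -, h3, -⟩ := h
  exact fun y => h1.isClosedMap.isClosed_range.closure_subset
    (closure_mono (fun z hz => (⟨w z, (h3 z hz).2⟩ : z ∈ range u)) (h2 y))

theorem lc_of_snc (hΔ : J.IsSNC (Cm n) Δ) (S : Set X) : IsLC (Cm n) Δ S := by
  classical
  rintro X' _ _ _ _ _ u hb D' k hD' - ⟨x, hx, e, w, he, hw, hw0, hj⟩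
  have hu : HolM n n u := hb.1
  have hs := bimer_surj hb
  have := hΔ.1.fintype
  have hw := hol_iff.2 hw
  have hc := at_chart (n := n) x
  have hc' := at_chart (n := n) (u x)
  obtain ⟨z₀, a0, a1, a2⟩ := ((mem_closure_iff_frequently.1 (subset_closure_sm hD'.2.1 hx)).and_eventually
    ((loc_near he).and ((at_near hc).and ((hu.cont.continuousAt.eventually (at_near hc')).and
      (hw.near.and ((hw.ne_near hw0).and hj.eventually_nhds)))).eventually_nhds)).exists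
  have hL : LEq n D' z₀ e := leq_of_loc a1 fun _ => dif_ne_of_mem_sm a0 a1
  obtain ⟨ζ, hζ, hi⟩ := snc_snc hΔ (u z₀)
  obtain ⟨Θ, j, t1, t2, t3⟩ := Md.exists_ca hi
  have hz₀ := hu.cont.continuousAt (x := z₀)
  choose r b b1 b2 b3 using fun l => Md.exists_ord hL a0.1 (hu.hol (hζ l).hol) fun c =>
    ((prime_thin (hΔ.2.1 _ l.2)).pre_surj hu hs).freq z₀
      ((c.and (hz₀.eventually (hζ l).1)).mono fun y m m' => m' (m.2.1 m.1))
  obtain ⟨z, ⟨c1, c2⟩, ⟨c3, c4, c5, c6, c7⟩, c8, c9, c10, c11, c12⟩ := ((freq_all a0.1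
    (P := fun l y => b l y ≠ 0) fun l => ((Md.ndv hL a0.1 (b1 l) (b2 l)).and
      (b1 l).near.eventually_nhds).mono fun y m m' => ((m.1 m').and_eventually m.2).mono
        fun w q => ⟨q.1.1, q.2.ne_near q.1.2⟩).and_eventually (a2.and (hL.near.and
    ((eventually_all.2 fun l => (b1 l).near).and ((eventually_all.2 b3).eventually_nhds.and
      ((hz₀.eventually t1.near).and
        (hz₀.eventually (eventually_all.2 fun l => (hζ l).near)))))))).exists
  have hz := hu.cont.continuousAt (x := z)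
  have h1 : ∀ l : {D : Set X | Δ D ≠ 0}, P281V55.ord (Cm n) (Cm n) u D' l = r l := fun l =>
    ord_eq hu hs hD' (hΔ.2.1 _ l.2) c1 (isLocalEq_of_leq c8) (isLocalEq_of_leq (c12 l)) (c9 l)
      (c2 l).self_of_nhds (c10.mono fun y m => (m l).trans (mul_comm _ _))
  obtain ⟨Ξ, i, s1, -, s2⟩ := Md.exists_ca (Hp.ind_one c8 c1)
  have s3 : ∀ᶠ y in 𝓝 z, Ξ y (i ()) = e y := s1.near.mono fun y m => s2 y m.2 ()
  have e0 : e z = 0 := c8.mem.2 c1
  have s4 : ∀ᶠ y in 𝓝 z, ∀ a, Θ (u y) (j a) = b a y * e y ^ r a := by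
    filter_upwards [c10, hz.eventually c11.near] with y m1 m2 a
    rw [t3 _ m2.2, m1, mul_comm]
  obtain ⟨C, hC⟩ := Tp.logb s1 (anV_comp (hu.at z) c11.anV) (s3.self_of_nhds.trans e0) t2
    (fun a => ⟨r a, b a, c9 a, (c2 a).self_of_nhds, (s4.and s3).mono fun y m => by
      rw [m.1, m.2]⟩) id
  obtain ⟨d, d1, d2, d3⟩ := jc_chg (hu.at z) s1 (ca_of c3) c11 (ca_of c4)
  have h2 : (0 : ℝ) ≤ (k + 1 : ℕ) - (∑ a : {l : {D : Set X | Δ D ≠ 0} // u z₀ ∈ l.1}, r a : ℕ) := by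
    obtain ⟨C', -, hC'⟩ := bdd_near (f := fun y => C * ∏ a : {l : {D : Set X | Δ D ≠ 0} //
      u z₀ ∈ l.1}, ‖b a y‖) (continuousAt_const.mul (tendsto_finsetProd _ fun a _ =>
        (c9 a.1).cont.norm))
    refine Md.exp_nonneg (S := {y | e y ≠ 0}) (φ := fun y => ‖d y * w y‖) (ζ := fun y => ‖e y‖)
      (not_eventually.1 (leq_nz c8)) (d1.mul c5).cont.norm (norm_pos_iff.2 (mul_ne_zero d2 c6))
      c8.hol.cont.norm (by simp [e0]) (.of_forall fun y m => norm_pos_iff.2 m) ⟨C', ?_⟩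
    filter_upwards [hC, hC', s3, s4, d3, c7] with y m1 m2 m3 m4 m5 m6 m7
    have m8 := norm_pos_iff.2 m7
    rw [jac_jc] at m6
    simp only [m3, m4, show mn (fun y => Θ (u y)) Ξ id y = _ from m5, m6, norm_mul, norm_pow,
      Finset.prod_mul_distrib, Finset.prod_pow_eq_pow_sum] at m1
    rw [Real.rpow_sub m8, Real.rpow_natCast, Real.rpow_natCast, ← mul_div_assoc,
      div_le_iff₀ (pow_pos m8 _), norm_mul]
    refine le_trans (le_of_eq (by ring)) (m1.trans ?_)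
    rw [← mul_assoc]
    exact mul_le_mul_of_nonneg_right m2 (pow_pos m8 _).le
  have h3 : ∑ a : {l : {D : Set X | Δ D ≠ 0} // u z₀ ∈ l.1}, r a = ∑ l, r l := by
    rw [← Finset.sum_subtype (Finset.univ.filter fun l : {D : Set X | Δ D ≠ 0} => u z₀ ∈ l.1)
      (by simp), Finset.sum_filter_of_ne fun l _ c => (hζ l).mem.1 (by
        rw [(b3 l).self_of_nhds, hL.mem.2 a0.1, zero_pow c, zero_mul])]
  have h4 : ∑ l : {D : Set X | Δ D ≠ 0}, Δ l * P281V55.ord (Cm n) (Cm n) u D' l ≤ ∑ l, (r l : ℝ) :=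
    Finset.sum_le_sum fun l _ => by
      obtain ⟨q, q1, -, q2⟩ := hΔ.2.2.1 l
      rw [h1]
      exact mul_le_of_le_one_left (Nat.cast_nonneg _) (q1 ▸ by exact_mod_cast q2)
  rw [h3] at h2
  rw [fsum]
  push_cast at h2
  linarith

end Vale.Agent.N281
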