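import Vale.Agent.N281.Model

/-!
# N281: subadditivity for log canonical pairs and orbifold morphisms
-/

open scoped Manifold ContDiff ENNReal
open Filter Topology Set Function
open Vale.Agent.P272.K (Chart At jacM)
open Vale.Agent.P285.H281.FD
open Vale.Agent.P277Z Vale.Agent.P281 Vale.Agent.P281Z Vale.Agent.P281Z.Nt Vale.Agent.P281V55
open Vale.Agent.P277Z.Slc (Ind LEq Snc isLB_can)
open Vale.Agent.P281.H713.TZ.S (Cm kodX kodR)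
open Vale.Agent.P281.H511.Surf (IsFibration)
open Vale.Agent.P281.H303.StatC (ClassC)
open Vale.Agent.P281Z.Md Vale.Agent.P281Z.Top

set_option linter.unusedSectionVars false

noncomputable section

namespace Vale.Agent.N281

section

variable {n p d j : ℕ} {V V₁ : Mf n} {Y : Mf p} {u : V₁.X → V.X} {f : V.X → Y.X}
  {Δ : Set V.X → ℝ} [Fintype {D : Set V.X | Δ D ≠ 0}] {κ : Type} [Fintype κ] {G : κ → Set V₁.X}
  {ε δ : κ → ℚ}

theorem snc_empty : Snc n (isEmptyElim : Empty → Set V.X) := fun _ =>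
  ⟨isEmptyElim, isEmptyElim, fun l => isEmptyElim l.1, fun _ _ => linearIndependent_empty_type⟩

theorem offS_thin (hΔ : IsBoundary (Cm n) Δ) : Thin n (offS Δ)ᶜ :=
  compl_off (fun l : {D : Set V.X | Δ D ≠ 0} => l.1) ▸
    .iUnion fun l => prime_thin (hΔ.2.1 _ l.2)

theorem ex_lr (hC : ClassC n V.X) (hΔ : IsBoundary (Cm n) Δ) {B' : Set V.X} (hB' : Thin n B') :
    ∃ (V₁ : Mf n) (u : V₁.X → V.X) (κ : Type) (_ : Fintype κ) (G : κ → Set V₁.X) (ε δ : κ → ℚ),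
      LR u Δ G ε δ ∧ V₁.Kah ∧ ∀ y ∈ off G, u y ∉ B' := by
  obtain ⟨X₁, _, _, u, hu, hK⟩ := hC
  have := hu.1.2.1
  have := hu.1.2.2.2
  have : CompactSpace X₁ := ⟨by simpa using hu.2.2.1.isCompact_preimage isCompact_univ⟩
  obtain ⟨B, hB⟩ := Tp.modif_of genS (V₁ := ⟨X₁⟩) hu
  obtain ⟨V₁, u', κ, _, G, ε, -, k1, k2, k6, k3, -, k4, k7, k5⟩ :=
    logm n V ⟨X₁⟩ u B Empty isEmptyElim isEmptyElim _ hB snc_empty isEmptyElim
      (hB.pre_thin ((offS_thin hΔ).union hB'))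
  choose q q1 _ using hΔ.2.2
  refine ⟨V₁, fun x => u (u' x), κ, _, G, ε, fun l => min 1 (ε l + ∑ D : {D : Set V.X | Δ D ≠ 0},
    q D * P281V55.ord (Cm n) (Cm n) (fun x => u (u' x)) (G l) D), ⟨hΔ, k1, k2, k6,
      fun l => (k3 l).1, k4.exc, fun x hx ζ hζ => ?_, fun y hy => not_not.1 fun c => k7 y hy (.inl c),
      fun l => by simp [pm, q1]⟩, k5 hK, fun y hy c => k7 y hy (.inr c)⟩
  obtain ⟨C, c1, c2⟩ := k4.iso x hx isEmptyElim ζ isEmptyElim hζ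
  exact ⟨C, c1, (eventually_inf_principal.1 c2).mono fun y a b => by simpa using (a b).1⟩

namespace LR

variable (h : LR u Δ G ε δ) [ConnectedSpace V₁.X]

include h

/-- the base -/
theorem tau [ConnectedSpace V.X] (hf : HolM n p f) (hs : Surjective f) {Γ : Set Y.X → ℝ}
    [Fintype {D : Set Y.X | Γ D ≠ 0}] (hΓ : J.IsSNC (Cm p) Γ) (ho : IsOrbMor (Cm n) (Cm p) f Δ Γ)
    (hp : ∀ y ∈ off G, f (u y) ∈ offS Γ)
    (hj : ∃ (m : ℕ) (k : Set Y.X → ℕ) (s : ℕ → Y.X → ℂ) (z : Y.X), 0 < m ∧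
      (∀ D, (k D : ℝ) = m * Γ D) ∧
      (∀ b, J.IsSection (Cm p) (fun (D : Set Y.X) x g => J.IsLocalEq (Cm p) D g x) m k (s b)) ∧
      (∀ D, k D ≠ 0 → ∃ g, J.IsLocalEq (Cm p) D g z ∧ g z ≠ 0) ∧ s 0 z ≠ 0 ∧
      Surjective fun (ξ : Cm p) (b : Fin j) => J.dif (Cm p) (fun w => s (b + 1) w / s 0 w) z ξ) :
    Fb.Tau ⟨V₁, Y, fun x => f (u x), κ, G, δ⟩ j := by
  obtain ⟨m, k, s, z, h1, h2, h3, h4, h5⟩ := hj
  obtain ⟨B, hB⟩ := h.md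
  have hΓ' : IsBoundary (Cm p) Γ := ⟨hΓ.1, hΓ.2.1, hΓ.2.2.1⟩
  obtain ⟨m, k1, τ, k2, k3⟩ := Tp.kapL_of (i := fun y => y) hΓ holM_id ⟨m, k, s, z, h1, h2,
    fun b y => let ⟨T, g, a, c1, c2, c3⟩ := h3 b y
      ⟨T, g, a, c1, fun D c => ⟨_, c2 D c, .of_forall fun _ => rfl⟩, c3⟩,
    fun D c => (h4 D c).imp fun g c => ⟨⟨g, c.1, .of_forall fun _ => rfl⟩, c.2⟩, h5⟩
  exact ⟨m, _, τ, k1, snc_thin_off (snc_snc hΓ), fun b => Tp.tb_base (hf.comp hB.hol) h.snc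
    (snc_snc hΓ) hp (fun l => by exact_mod_cast (h.bdry l).1) (fun j => hΓ'.le _) (k2 b)
    fun l x hx => (Hp.genp h.snc hx).mono fun y c => ⟨c.1, or_iff_not_imp_left.2
      (h.num hf hs hΓ ho c.1 c.2)⟩, by rwa [compl_compl]⟩

omit [ConnectedSpace V₁.X] in
/-- the fibre of the resolution is a modification of the fibre -/
theorem wm (hf : HolM n p f) {y : Y.X} (r₁ : RegAt n p (fun x => f (u x)) G y) {F F₁ : Mf d}
    {i : F.X → V.X} {i₁ : F₁.X → V₁.X} (hi : Emb d n i (f ⁻¹' {y}))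
    (hi₁ : Emb d n i₁ ((fun x => f (u x)) ⁻¹' {y})) :
    ∃ w, WM d w ∧ ∀ z, i (w z) = u (i₁ z) := by
  obtain ⟨B, hu⟩ := h.md
  have hf₁ : HolM n p fun x => f (u x) := hf.comp hu.hol
  obtain ⟨w, hw, e⟩ := hi.lift (hu.hol.comp hi₁.hol) hi₁.fib
  have e' : (fun z => i (w z)) = fun z => u (i₁ z) := funext e
  have im : ∀ x, Imm d d w x ↔ Imm n n u (i₁ x) := fun x => by
    refine ⟨fun k => hi₁.fib_imm hf₁ (r₁.sbm hf₁ h.snc (hi₁.fib x)) (hu.hol.at _)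
      (e' ▸ Imm.comp (hi.hol.at _) (hw.at x) (hi.imm _) k) fun c c' c'' a1 a2 a3 t ht => ?_,
      fun k => Imm.of_comp (hi.hol.at _) (hw.at x)
        (e' ▸ Imm.comp (hu.hol.at _) (hi₁.hol.at x) k (hi₁.imm x))⟩
    rw [df_comp (hf.at _) (hu.hol.at _) a1 a3 a2]
    simp [ht]
  refine ⟨w, ⟨hw, fun z => ?_, Dense.mono (fun x hx => (im x).2 (h.imm _ hx))
    (snc_dense_off (r₁.snc hf₁ h.snc hi₁)),
    fun x x' k k' => hi₁.inj (hu.inj_imm ((im x).1 k) (by rw [← e, ← e, k']))⟩, e⟩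
  obtain ⟨x, hx⟩ := hu.surj (i z)
  obtain ⟨t, rfl⟩ := hi₁.ex (y := x) (show f (u x) = y from hx ▸ hi.fib z)
  exact ⟨t, hi.inj ((e t).trans hx)⟩

end LR

end

theorem main {p d : ℕ} {V : Mf (p + d)} {Y : Mf p} [ConnectedSpace V.X] {f : V.X → Y.X}
    {Δ : Set V.X → ℝ} {Γ : Set Y.X → ℝ} (h : Fibn (p + d) p f) (hC : ClassC (p + d) V.X)
    (hΔ : IsBoundary (Cm (p + d)) Δ) (hΓ : J.IsSNC (Cm p) Γ)
    (ho : IsOrbMor (Cm (p + d)) (Cm p) f Δ Γ) :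
    VeryGen (p + d) p d f fun _ _ _ i => (∀ D, Δ D ≠ 0 → ∃ t, i t ∉ D) ∧
      (IsLC (Cm (p + d)) Δ (range i) →
        kodR (Cm (p + d)) (Cm d) i Δ + kodX (Cm p) Γ ≤ kodX (Cm (p + d)) Δ) := by
  have := h.connY
  have hf := h.hol
  have hs := h.surj
  let _ := hΔ.1.fintype
  let _ := hΓ.1.fintype
  obtain ⟨V₁, u, κ, _, G, ε, δ, hL, hK, hp⟩ := ex_lr hC hΔ
    ((snc_thin_off (snc_snc hΓ)).pre_surj hf hs)
  obtain ⟨B, hB⟩ := hL.md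
  have := hB.conn
  let M : Fb (p + d) p := ⟨V₁, Y, fun x => f (u x), κ, G, δ⟩
  have hM₁ : M.Ok := ⟨hB.conn, h.modif hB, hL.snc, hL.bdry⟩
  have hf₁ : HolM (p + d) p fun x => f (u x) := hM₁.fibn.hol
  obtain ⟨Q, hQ, hr⟩ := genS _ p _ _ _ _ _ hf snc_empty
  obtain ⟨Q₁, hQ₁, hr₁⟩ := genS _ p _ _ _ _ G hf₁ hL.snc
  obtain ⟨S, h5, h6⟩ := (hQ.union hQ₁).neg.union
    (.iUnion fun a : {a // ¬ M.Fib d a} => not_not.1 a.2)
  refine ⟨S, fun k => ⟨(h5 k).ne_univ, fun y => let ⟨r, g, a, b⟩ := (h5 k).1 y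
    ⟨r, g, fun c => hol_iff.1 (a c), b⟩⟩, fun y hy => ?_⟩
  have h7 := fun c => (mem_iUnion.1 (h6 (a := y) c)).elim hy
  have r := hr y fun c => h7 (.inl (.inl c))
  have r₁ := hr₁ y fun c => h7 (.inl (.inr c))
  refine ⟨?_, fun F _ _ i hi => ?_⟩
  · obtain ⟨F, i, hi⟩ := fib_emb (d := d) (y := y) rfl hf fun _ => r.sbm hf snc_empty
    exact ⟨F.X, _, _, i, ⟨inferInstance, hi.conn.2 (h.conn_all y), inferInstance, hi.hol,
      fun t => (imm_iff (hi.hol.at t)).1 (hi.imm t), hi.fib⟩, hi.inj, hi.rng⟩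
  have := hi.1.compact
  have := hi.1.manifold
  have := hi.1.connected
  have hi' : HolM d (p + d) i := hi.1.hol
  have := T2Space.of_injective_continuous hi.2.1 hi'.cont
  have hE : Emb d (p + d) i (f ⁻¹' {y}) :=
    ⟨hi', hi.2.1, fun t => (imm_iff (hi'.at t)).2 (hi.1.immersion t), hi.2.2⟩
  obtain ⟨F₁, i₁, hi₁, s₁⟩ := r₁.fib (d := d) rfl hf₁ hL.snc
  obtain ⟨w, w1, w2⟩ := hL.wm (F := ⟨F⟩) hf r₁ hE hi₁
  refine ⟨fun D hD => ?_, fun hc => ?_⟩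
  · have : Nonempty F₁.X := ⟨(w1.surj (Classical.arbitrary F)).choose⟩
    obtain ⟨t, ht⟩ := (snc_dense_off s₁).nonempty
    exact ⟨w t, (w2 t).symm ▸ hL.sub _ ht ⟨D, hD⟩⟩
  have c0 := fun a => pull_kap (j := a) (δ := fun l => δ l) (sig rfl) hΔ hB.hol w2 w1 hi' hi₁.hol
    (fun z => hE.fibA hf (r.sbm hf snc_empty (hE.fib z)))
    (fun z => hi₁.fibA hf₁ (r₁.sbm hf₁ hL.snc (hi₁.fib z))) s₁ hL.sub
    fun _ _ hk x _ hg => hL.wt hc hk ⟨_, w2 x⟩ hg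
  have c1 := fun k => hL.tau (j := k) hf hs hΓ ho fun y c => not_not.1 (hp y c)
  exact Tp.sup_add (N := d) (N' := p) (fun a c => (c0 a c).le)
    (fun k c => let ⟨_, _, _, _, _, _, c⟩ := c1 k c; c.le) fun a k a1 a2 =>
      hL.kap (All.core _ p d M rfl hM₁ hK a k (by_contra fun c =>
        h7 (.inr (mem_iUnion.2 ⟨⟨a, c⟩, F₁, i₁, hi₁, c0 a a1⟩))) (c1 k a2))

theorem final (n p : ℕ) (X Y : Type) [TopologicalSpace X] [ChartedSpace (Cm n) X]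
    [TopologicalSpace Y] [ChartedSpace (Cm p) Y] (f : X → Y) (Δ : Set X → ℝ) (Γ : Set Y → ℝ)
    (h : IsFibration (Cm n) (Cm p) f 0) (hX : InC n X) (hΔ : IsBoundary (Cm n) Δ)
    (hΓ : J.IsSNC (Cm p) Γ) (ho : IsOrbMor (Cm n) (Cm p) f Δ Γ) :
    VeryGen n p (n - p) f fun _ _ _ i => (∀ D, Δ D ≠ 0 → ∃ t, i t ∉ D) ∧
      (IsLC (Cm n) Δ (range i) → kappa (Cm (n - p)) (eqR (Cm n) i) Δ +
        kappa (Cm p) (eqX (Cm p)) Γ ≤ kappa (Cm n) (eqX (Cm n)) Δ) := by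
  obtain ⟨d, rfl⟩ := Nat.exists_eq_add_of_le (Tp.le_dim genS h)
  rw [Nat.add_sub_cancel_left]
  have := h.hausdorff.1
  have := h.hausdorff.2
  have := h.compact
  have := h.connected
  have := h.manifold.1
  have := h.manifold.2
  have := cptY h
  obtain ⟨H, h1, h2⟩ := main (V := ⟨X⟩) (Y := ⟨Y⟩) (.of_all h.hol h.fibres)
    (Tp.classC_of Ky.ky rem _ (All.fujiki h hX)) hΔ hΓ ho
  refine ⟨H, h1, fun y hy => ⟨(h2 y hy).1, fun F _ _ i hi => ?_⟩⟩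
  obtain ⟨h3, h4⟩ := (h2 y hy).2 F i hi
  have := hi.1.compact
  have := hi.1.connected
  have := hi.1.manifold
  have : T2Space F := T2Space.of_injective_continuous hi.2.1 hi.1.hol.continuous
  exact ⟨h3, fun c => ((add_le_add
    (P281W55.kappa_le (P281W55.goodR hi.1.hol) (P281W55.dnR hi.1.hol) Δ)
    (P281W55.kappa_le P281W55.goodX P281W55.dnX Γ)).trans (h4 c)).trans
    (P281W55.le_kappa P281W55.goodX P281W55.dnX Δ)⟩

theorem orb_zero {n p : ℕ} {X Y : Type} [TopologicalSpace X] [ChartedSpace (Cm n) X]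
    [TopologicalSpace Y] [ChartedSpace (Cm p) Y] (f : X → Y) (Δ : Set X → ℝ) :
    IsOrbMor (Cm n) (Cm p) f Δ 0 := fun D G _ _ h => by
  have h1 : 1 ≤ P281V55.mult Δ D := by
    rw [P281V55.mult, one_div, ENNReal.one_le_inv]
    exact tsub_le_self
  simpa [P281V55.mult] using one_le_mul (Nat.one_le_cast.2 h) h1

theorem snc_zero {p : ℕ} {Y : Type} [TopologicalSpace Y] [ChartedSpace (Cm p) Y] :
    J.IsSNC (Cm p) (0 : Set Y → ℝ) :=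
  ⟨by simp, fun _ h => (h rfl).elim, fun _ => ⟨0, by simp⟩,
    fun _ _ _ _ => ⟨0, funext fun D => (D.2.1 rfl).elim⟩⟩

theorem lc_convex {n : ℕ} {X : Type} [TopologicalSpace X] [ChartedSpace (Cm n) X]
    {Δ Δ' : Set X → ℝ} {S : Set X} {t : ℝ} (h : IsBoundary (Cm n) Δ) (h' : IsBoundary (Cm n) Δ')
    (h0 : 0 ≤ t) (h1 : t ≤ 1) (k : IsLC (Cm n) Δ S) (k' : IsLC (Cm n) Δ' S) :
    IsLC (Cm n) (fun D => t * Δ D + (1 - t) * Δ' D) S := by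
  intro X' _ _ _ _ _ u hu D' m a1 a2 a3
  have b := mul_le_mul_of_nonneg_left (k X' u hu D' m a1 a2 a3) h0
  have b' := mul_le_mul_of_nonneg_left (k' X' u hu D' m a1 a2 a3) (sub_nonneg.2 h1)
  have c : ∀ {Δ : Set X → ℝ} (r : Set X → ℝ), IsBoundary (Cm n) Δ →
      (support fun D => Δ D * r D).Finite := fun r h =>
    h.1.subset fun D c => left_ne_zero_of_mul c
  simp only [add_mul, mul_assoc]
  rw [finsum_add_distrib ((c _ h).subset (support_mul_subset_right _ _))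
    ((c _ h').subset (support_mul_subset_right _ _)), ← mul_finsum, ← mul_finsum]
  linarith

theorem q1 (n p : ℕ) (X Y : Type) [TopologicalSpace X] [ChartedSpace (Cm n) X]
    [TopologicalSpace Y] [ChartedSpace (Cm p) Y] (f : X → Y) (Δ : Set X → ℝ)
    (h : IsFibration (Cm n) (Cm p) f Δ) (hX : InC n X) :
    VeryGen n p (n - p) f fun _ _ _ i => (∀ D, Δ D ≠ 0 → ∃ t, i t ∉ D) ∧
      kF n (n - p) i Δ + kB n p f Δ ≤ kX n Δ :=
  let ⟨_, _, H, b, c⟩ := P281V55.final.2 n p X Y f Δ h hX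
  ⟨H, b, fun y hy => ⟨(c y hy).1, fun F _ _ i hi =>
    ⟨((c y hy).2 F i hi).1, ((c y hy).2 F i hi).2.2.1⟩⟩⟩

theorem q2 (n p : ℕ) (X Y : Type) [TopologicalSpace X] [ChartedSpace (Cm n) X]
    [TopologicalSpace Y] [ChartedSpace (Cm p) Y] (f : X → Y) (Δ : Set X → ℝ)
    (h : IsFibration (Cm n) (Cm p) f 0) (hX : InC n X) (hΔ : IsBoundary (Cm n) Δ) :
    (∀ Γ : Set Y → ℝ, J.IsSNC (Cm p) Γ → IsOrbMor (Cm n) (Cm p) f Δ Γ →
      VeryGen n p (n - p) f fun _ _ _ i => (∀ D, Δ D ≠ 0 → ∃ t, i t ∉ D) ∧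
        (IsLC (Cm n) Δ (range i) → kF n (n - p) i Δ + kX p Γ ≤ kX n Δ)) ∧
    VeryGen n p (n - p) f fun _ _ _ i => IsLC (Cm n) Δ (range i) →
      kF n (n - p) i Δ + kX p (0 : Set Y → ℝ) ≤ kX n Δ :=
  ⟨fun Γ => final n p X Y f Δ Γ h hX hΔ,
    let ⟨H, b, c⟩ := final n p X Y f Δ 0 h hX hΔ snc_zero (orb_zero f Δ)
    ⟨H, b, fun y hy => ⟨(c y hy).1, fun F _ _ i hi => ((c y hy).2 F i hi).2⟩⟩⟩

theorem q3 (n p : ℕ) : LcOK (Cm n) ∧ WellDef (Cm n) (Cm p) :=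
  ⟨fun _ _ _ _ _ S => ⟨fun h => lc_of_snc h S, fun _ _ => lc_convex⟩,
    fun Z W _ _ _ _ _ _ _ h hh => ⟨ordUnique n p Z W h hh, fun _ _ _ _ =>
      ⟨P281W55.finDim P281W55.goodX P281W55.dnX,
        P281W55.finDim (P281W55.goodR hh) (P281W55.dnR hh)⟩⟩⟩

end Vale.Agent.N281
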