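import Vale.Agent.N281.Pull

/-!
# N281: the log resolution of a pair, with the crepant boundary truncated at one
-/

open scoped Manifold ContDiff ENNReal
open Filter Topology Set Function
open Vale.Agent.P272.K (Chart At jacM)
open Vale.Agent.P285.H281.FD
open Vale.Agent.P277Z Vale.Agent.P281 Vale.Agent.P281Z Vale.Agent.P281Z.Nt Vale.Agent.P281V55
open Vale.Agent.P277Z.Slc (Ind LEq Snc isLB_can)
open Vale.Agent.P281.H713.TZ.S (Cm kodX)
open Vale.Agent.P281Z.Md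

set_option linter.unusedSectionVars false

noncomputable section

namespace Vale.Agent.N281

variable {n p d j : ℕ} {V V₁ : Mf n} {Y : Mf p} {u : V₁.X → V.X} {f : V.X → Y.X}
  {Δ : Set V.X → ℝ} [Fintype {D : Set V.X | Δ D ≠ 0}] {κ : Type} [Fintype κ] {G : κ → Set V₁.X}
  {ε δ : κ → ℚ}

variable (u Δ G) in
/-- the order of `u^* Δ` along `G l` -/
abbrev pm (l : κ) : ℝ := ∑ D : {D : Set V.X | Δ D ≠ 0}, Δ D * P281V55.ord (Cm n) (Cm n) u (G l) D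

variable (u Δ G ε δ) in
/-- a log resolution -/
structure LR : Prop where
  bd : IsBoundary (Cm n) Δ
  md : ∃ B, Modif n u B
  snc : Snc n G
  conn : ∀ l, IsConnected (G l)
  nn : ∀ l, 0 ≤ ε l
  exc : ∀ x, ¬ Imm n n u x → ∃ l, ε l = 1 ∧ x ∈ G l
  iso : ∀ x, Imm n n u x → ∀ ζ : κ → V₁.X → ℂ, (∀ l, LEq n (G l) x (ζ l)) →
    ∃ C, 0 < C ∧ ∀ᶠ y in 𝓝 x, y ∈ off G → 1 ≤ C * ∏ l, ‖ζ l y‖ ^ (ε l : ℝ)
  sub : ∀ y ∈ off G, u y ∈ offS Δ
  val : ∀ l, (δ l : ℝ) = min 1 (ε l + pm u Δ G l)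

theorem IsBoundary.nn (h : IsBoundary (Cm n) Δ) (D : Set V.X) : 0 ≤ Δ D :=
  let ⟨_, a, b, _⟩ := h.2.2 D
  a ▸ by exact_mod_cast b

theorem IsBoundary.le (h : IsBoundary (Cm n) Δ) (D : Set V.X) : Δ D ≤ 1 :=
  let ⟨_, a, _, b⟩ := h.2.2 D
  a ▸ by exact_mod_cast b

theorem ex_den (hΔ : IsBoundary (Cm n) Δ) : ∃ N : ℕ, 0 < N ∧ ∀ D, ∃ a : ℕ, (a : ℝ) = N * Δ D := by
  choose q h1 h2 _ using hΔ.2.2
  refine ⟨∏ l : {D : Set V.X | Δ D ≠ 0}, (q l).den, Finset.prod_pos fun l _ => (q l).pos,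
    fun D => ?_⟩
  by_cases hD : Δ D = 0
  · exact ⟨0, by simp [hD]⟩
  obtain ⟨c, hc⟩ := Finset.dvd_prod_of_mem (fun l : {D : Set V.X | Δ D ≠ 0} => (q l).den)
    (Finset.mem_univ ⟨D, hD⟩)
  refine ⟨c * (q D).num.toNat, ?_⟩
  have : ((q D).num.toNat : ℚ) = (q D).den * q D := by
    rw [Rat.den_mul_eq_num, ← Int.cast_natCast, Int.toNat_of_nonneg (Rat.num_nonneg.2 (h2 D))]
  rw [hc, h1 D, Nat.cast_mul, Nat.cast_mul, mul_comm _ (c : ℝ), mul_assoc]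
  exact congrArg _ (by exact_mod_cast this)

theorem sum_pm {m : ℕ} {k : Set V.X → ℕ} (hk : ∀ D, (k D : ℝ) = m * Δ D) (l : κ) :
    ∑ D : {D : Set V.X | Δ D ≠ 0}, (k D : ℝ) * P281V55.ord (Cm n) (Cm n) u (G l) D =
      m * pm u Δ G l := by
  simp only [hk, Finset.mul_sum, mul_assoc]

namespace LR

variable (h : LR u Δ G ε δ)

include h

theorem pm_nn (l : κ) : 0 ≤ pm u Δ G l :=
  Finset.sum_nonneg fun _ _ => mul_nonneg (h.bd.nn _) (Nat.cast_nonneg _)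

theorem imm (y : V₁.X) (hy : y ∈ off G) : Imm n n u y :=
  by_contra fun c => let ⟨l, _, a⟩ := h.exc y c; hy l a

theorem bdry (l : κ) : 0 ≤ δ l ∧ δ l ≤ 1 := by
  have h1 : (0 : ℝ) ≤ ε l := by exact_mod_cast h.nn l
  have h2 : (0 : ℝ) ≤ δ l := h.val l ▸ le_min zero_le_one (add_nonneg h1 (h.pm_nn l))
  have h3 : (δ l : ℝ) ≤ 1 := h.val l ▸ min_le_left _ _
  exact ⟨by exact_mod_cast h2, by exact_mod_cast h3⟩

variable [ConnectedSpace V₁.X]

/-- the total space -/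
theorem kap (H : KapL n n id (Bd.can n V₁.X) G (fun l => δ l) j) :
    (j : WithBot ℕ∞) ≤ kodX (Cm n) Δ := by
  obtain ⟨B, hB⟩ := h.md
  obtain ⟨m₀, h0, H⟩ := H
  obtain ⟨N, hN, hk⟩ := ex_den h.bd
  have hH := Hyp.of_snc h.snc
  obtain ⟨s, h1, h2⟩ := H.mul_right hH continuous_id isLB_can hN
  have hm := mul_pos h0 hN
  obtain ⟨k, hk⟩ : ∃ k : Set V.X → ℕ, ∀ D, (k D : ℝ) = (m₀ * N : ℕ) * Δ D := by
    choose k hk using hk
    exact ⟨fun D => m₀ * k D, fun D => by push_cast; rw [hk, mul_assoc]⟩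
  generalize m₀ * N = m at *
  have hu := wm_of hB
  obtain ⟨y, c1, c2, c3⟩ := h2.move hH continuous_id (lb_pow isLB_can m) (h1 0) hu.dense
  refine push_kod hu (Md.exc n V V₁ u hu) h.snc h.bd hm hk h.sub
    (fun b => univ_inter (off G) ▸ ten_of (h1 b)) (fun b y g a hg => ?_) c1 c2 c3
  obtain ⟨ζ, hζ, -⟩ := h.snc y
  obtain ⟨C, a1, a2⟩ := h.iso y a ζ hζ
  have a3 : Bnd (off G) _ y := ((((h1 b).bdP trivial (at_chart y)).mul continuousAt_id
    (bdP_prod continuousAt_id Finset.univ fun l _ => (mon_pull hu.hol hu.surj h.snc h.conn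
      (h.bd.2.1 _ l.2) (fun y c => h.sub y c l) (hg l)).1.pow continuousAt_id (k l))).mono
    (c' := fun l => m * (ε l : ℝ)) continuousAt_id fun l _ => by
      have := mul_le_mul_of_nonneg_left (h.val l ▸ min_le_right _ _ : (δ l : ℝ) ≤ _)
        (Nat.cast_nonneg (α := ℝ) m)
      simp only [mul_neg, Finset.sum_neg_distrib, sum_pm hk]
      linarith) ζ hζ
  simp only [prod_exp] at a3
  simpa using a3.cpb (B := fun _ => 1) (fun _ => norm_nonneg _) (fun _ => zero_le_one) a1 a2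

/-- the weights along a fibre -/
theorem wt {S : Set V.X} (hL : IsLC (Cm n) Δ S) {m : ℕ} {k : Set V.X → ℕ}
    (hk : ∀ D, (k D : ℝ) = m * Δ D) {x : V₁.X} (hx : u x ∈ S)
    {g : {D : Set V.X | Δ D ≠ 0} → V.X → ℂ} (hg : ∀ l, J.IsLocalEq (Cm n) l.1 (g l) (u x)) :
    BdP n id G (fun l => m * (δ l : ℝ)) (fun y => jc u (chartAt (Cm n) x)
      (chartAt (Cm n) (u x)) y ^ m * (∏ l, g l (u y) ^ k l)⁻¹) x := by
  obtain ⟨B, hB⟩ := h.md
  obtain ⟨β, b1, b2⟩ := mon_jac hB.hol h.snc h.imm (at_chart x) (at_chart (u x))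
  refine (((b1.pow continuousAt_id m).mul continuousAt_id (bdP_prod continuousAt_id Finset.univ
    fun l _ => (mon_pull hB.hol hB.surj h.snc h.conn (h.bd.2.1 _ l.2) (fun y c => h.sub y c l)
      (hg l)).2.pow continuousAt_id (k l))).mono continuousAt_id fun l c => ?_).congr
    (.of_forall fun y _ => by simp)
  have a1 := hL V₁.X u (bimer_of hB) (G l) (β l)
    (isPrime_of_hy (Ml.hy_of_snc h.snc l) (h.conn l)) ⟨x, c, hx⟩ (b2 l c)
  have a2 : (0 : ℝ) ≤ ε l := by exact_mod_cast h.nn l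
  have a3 : (0 : ℝ) ≤ β l := Nat.cast_nonneg _
  rw [fsum] at a1
  rw [sum_pm hk, ← mul_add, h.val]
  exact mul_le_mul_of_nonneg_left (le_min (by linarith) (by linarith)) (Nat.cast_nonneg m)

/-- the orbifold inequality -/
theorem num [ConnectedSpace V.X] (hf : HolM n p f) (hs : Surjective f) {Γ : Set Y.X → ℝ}
    [Fintype {D : Set Y.X | Γ D ≠ 0}] (hΓ : J.IsSNC (Cm p) Γ) (ho : IsOrbMor (Cm n) (Cm p) f Δ Γ)
    {l : κ} {z : V₁.X} (hz : z ∈ G l) (hz' : ∀ k, k ≠ l → z ∉ G k) (hE : f (u z) ∉ offS Γ) :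
    Tp.Num n p (fun x => f (u x)) G (fun j : {D : Set Y.X | Γ D ≠ 0} => j.1) (fun l => δ l)
      (fun j => Γ j) l z := by
  intro ζ η r hζ hη hr
  obtain ⟨B, hB⟩ := h.md
  have hΓ' : IsBoundary (Cm p) Γ := ⟨hΓ.1, hΓ.2.1, hΓ.2.2.1⟩
  have h0 : ∀ j : {D : Set Y.X | Γ D ≠ 0}, (0 : ℝ) ≤ r j * (1 - Γ j) := fun j =>
    mul_nonneg (Nat.cast_nonneg _) (sub_nonneg.2 (hΓ'.le _))
  have h1 := h.pm_nn l
  by_cases hi : Imm n n u z
  swap
  · obtain ⟨l', a1, a2⟩ := h.exc z hi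
    obtain rfl : l' = l := by_contra fun c => hz' _ c a2
    simp only [h.val, a1, Rat.cast_one, min_eq_left (le_add_of_nonneg_right h1), sub_self]
    exact Finset.sum_nonneg fun j _ => h0 j
  obtain ⟨j, hj⟩ := not_forall.1 hE
  replace hj := not_not.1 hj
  obtain ⟨g, g1, g2, g3⟩ := hr j
  have hr0 : r j ≠ 0 := fun c => g2 (by
    simpa [c, (hη j).mem.2 hj] using g3.self_of_nhds.symm)
  obtain ⟨v, v1, v2, v3, v4, v5⟩ := hi.inv (hB.hol.at z)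
  have hL := (imm_iff_sbm.1 v3).leq v2 (v1.symm ▸ hζ : LEq n (G l) (v (u z)) ζ)
  have hm : u z ∈ v ⁻¹' G l := show v (u z) ∈ G l from v1.symm ▸ hz
  have hP := hΓ.2.1 _ j.2
  have hv : Tendsto v (𝓝 (u z)) (𝓝 z) := by simpa only [v1] using v2.cont.tendsto
  have ev : ∀ᶠ x in 𝓝 (u z), η j (f x) = g (v x) * ζ (v x) ^ r j := by
    filter_upwards [hv.eventually g3, v5] with x a b
    rwa [b] at a
  obtain ⟨P, p1, -, p3⟩ := H303.Gen.irr n V.X (f ⁻¹' j.1) (hP.1.preimage hf.cont)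
    (H511.Gen.isHyp_preimage hf hP.2.1 fun z c =>
      ((prime_thin hP).pre_surj hf hs).freq z (c.mono fun _ k k' => k' k))
    (u z) _ (hol_iff.1 hL.hol) (hL.mem.2 hm) (leq_dif hL hm) (by
      filter_upwards [ev, hv.eventually (g1.ne_near g2), hf.cont.continuousAt.eventually (hη j).1]
        with x a b c
      rw [mem_preimage, ← c, a]
      simp [b, hr0])
  have p4 : u z ∈ P := (loc_mem p3).1 (hL.mem.2 hm)
  have o1 : P281V55.ord (Cm n) (Cm p) f P j = r j := ord_eq hf hs p1 hP p4 p3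
    (isLocalEq_of_leq (hη j)) (v2.hol (v1.symm ▸ g1)) (v1.symm ▸ g2 : g (v (u z)) ≠ 0) ev
  have o2 : P281V55.ord (Cm n) (Cm n) u (G l) P = 1 := ord_eq hB.hol hB.surj
    (isPrime_of_hy (Ml.hy_of_snc h.snc l) (h.conn l)) p1 hz (isLocalEq_of_leq hζ) p3
    (hol_const 1 z) one_ne_zero (v4.mono fun y a => by simp [a])
  have o3 := ho P j p1 hP (o1 ▸ Nat.pos_of_ne_zero hr0)
  rw [o1] at o3
  have o4 := enn_le (h.bd.nn P) (h.bd.le P) (hΓ'.nn j) (hΓ'.le j) o3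
  have o5 : Δ P ≤ pm u Δ G l := by
    by_cases c : Δ P = 0
    · exact c ▸ h1
    · simpa [o2] using Finset.single_le_sum (f := fun D : {D : Set V.X | Δ D ≠ 0} =>
        Δ D * P281V55.ord (Cm n) (Cm n) u (G l) D) (fun D _ => mul_nonneg (h.bd.nn _)
          (Nat.cast_nonneg _)) (Finset.mem_univ ⟨P, c⟩)
  have o6 : (0 : ℝ) ≤ ε l := by exact_mod_cast h.nn l
  have o7 : Δ P ≤ δ l := h.val l ▸ le_min (h.bd.le P) (by linarith)
  exact (sub_le_sub_left o7 1).trans (o4.trans (Finset.single_le_sum (fun j _ => h0 j)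
    (Finset.mem_univ j)))

end LR

end Vale.Agent.N281
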