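import Vale.Agent.N281.Main

/-!
# P281: log canonical pairs and orbifold morphisms
-/

open scoped Manifold ContDiff
open Set Vale.Agent.P281 Vale.Agent.P281Z.Top Vale.Agent.N281
open Vale.Agent.P281.H713.TZ.S (Cm)
open Vale.Agent.P281.H511.Surf (IsFibration)
open Vale.Agent.P281V55 (FinDim eqX eqR)

/-- (1) Let `f : X → Y` be a fibration, with `X` in Fujiki's class, `Δ` a rational boundary on `X`
with arbitrary singularities, and `Γ` a rational SNC boundary on `Y` such that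
`f : (X, Δ) → (Y, Γ)` is an orbifold morphism.  A very general fibre `F` is in no component of
`Δ`, and `κ(F, K_F + Δ|F) + κ(Y, K_Y + Γ) ≤ κ(X, K_X + Δ)` if `(X, Δ)` is log canonical along `F`.
(2) The same with `Γ = 0`, for every `Δ`.
(3) SNC boundaries, and convex combinations of log canonical boundaries, are log canonical.
(4) The spaces of sections are finite dimensional on all compact manifolds. -/
theorem Vale.Agent.N281.log_canonical :
    (∀ (n p : ℕ) (X Y : Type) [TopologicalSpace X] [ChartedSpace (Cm n) X]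
      [TopologicalSpace Y] [ChartedSpace (Cm p) Y] (f : X → Y) (Δ : Set X → ℝ),
      IsFibration (Cm n) (Cm p) f 0 → InC n X → IsBoundary (Cm n) Δ →
      (∀ Γ : Set Y → ℝ, J.IsSNC (Cm p) Γ → IsOrbMor (Cm n) (Cm p) f Δ Γ →
        VeryGen n p (n - p) f fun _ _ _ i => (∀ D, Δ D ≠ 0 → ∃ t, i t ∉ D) ∧
          (IsLC (Cm n) Δ (range i) → kF n (n - p) i Δ + kX p Γ ≤ kX n Δ)) ∧
      VeryGen n p (n - p) f fun _ _ _ i => IsLC (Cm n) Δ (range i) →
        kF n (n - p) i Δ + kX p (0 : Set Y → ℝ) ≤ kX n Δ) ∧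
    (∀ n : ℕ, LcOK (Cm n)) ∧
    ∀ (n p : ℕ) (Z W : Type) [TopologicalSpace Z] [ChartedSpace (Cm n) Z] [TopologicalSpace W]
      [ChartedSpace (Cm p) W] [IsManifold 𝓘(ℂ, Cm n) ω Z] [IsManifold 𝓘(ℂ, Cm p) ω W]
      [ConnectedSpace Z] [T2Space Z] [CompactSpace Z] [T2Space W] [CompactSpace W] (h : Z → W),
      ContMDiff 𝓘(ℂ, Cm n) 𝓘(ℂ, Cm p) ω h →
      FinDim (Cm p) (eqX (Cm p) (X := W)) ∧ FinDim (Cm n) (eqR (Cm p) h) :=
  ⟨q2, fun n => (q3 n 0).1, fun n p Z W _ _ _ _ _ _ _ a b c d h hh =>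
    ((q3 n p).2 Z W h hh).2 a b c d⟩
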