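import Vale.Agent.N281.Defs
import Vale.Agent.P281V55.Fin

/-!
# N281: orders of pull-backs and of Jacobians along the components of an SNC divisor
-/

open scoped Manifold ContDiff ENNReal
open Filter Topology Set Function
open Vale.Agent.P272.K (Chart At jacM)
open Vale.Agent.P277Z Vale.Agent.P281 Vale.Agent.P281Z Vale.Agent.P281Z.Nt Vale.Agent.P281V55
open Vale.Agent.P277Z.Slc (Ind LEq Snc)
open Vale.Agent.P281.H713.TZ.S (Cm)
open Vale.Agent.P281Z.Md (Ca mn dv ca_of mn_left hol_mn anV_comp)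

set_option linter.unusedSectionVars false

noncomputable section

namespace Vale.Agent.N281

section ord

variable {a b : ℕ} {Z W : Type} [TopologicalSpace Z] [ChartedSpace (Cm a) Z] [TopologicalSpace W]
  [ChartedSpace (Cm b) W] [IsManifold 𝓘(ℂ, Cm a) ω Z] [IsManifold 𝓘(ℂ, Cm b) ω W] {h : Z → W}
  {D : Set Z} {G : Set W} {k : ℕ} {z : Z} {e c : Z → ℂ} {g : W → ℂ}

theorem ord_eq [ConnectedSpace Z] (hh : HolM a b h) (hs : Surjective h) (hD : J.IsPrime (Cm a) D)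
    (hG : J.IsPrime (Cm b) G) (hz : z ∈ D) (he : J.IsLocalEq (Cm a) D e z)
    (hg : J.IsLocalEq (Cm b) G g (h z)) (hc : Hol a c z) (h0 : c z ≠ 0)
    (ev : ∀ᶠ y in 𝓝 z, g (h y) = c y * e y ^ k) : ord (Cm a) (Cm b) h D G = k := by
  have hk : IsOrd (Cm a) (Cm b) h D G k :=
    ⟨z, hz, e, g, c, he, hg, hol_iff.1 hc, h0, ev.mono fun _ m => m.trans (mul_comm _ _)⟩
  obtain ⟨k', -, h2⟩ := ordUnique a b Z W h hh hs D G hD hG
  rw [P281V55.ord, show {j | IsOrd (Cm a) (Cm b) h D G j} = {k} from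
    Set.ext fun j => ⟨fun m => (h2 j m).trans (h2 k hk).symm, fun m => m ▸ hk⟩, csInf_singleton]

end ord

variable {n : ℕ} {X X₁ : Type} [TopologicalSpace X] [ChartedSpace (Cm n) X] [TopologicalSpace X₁]
  [ChartedSpace (Cm n) X₁] [IsManifold 𝓘(ℂ, Cm n) ω X] [IsManifold 𝓘(ℂ, Cm n) ω X₁]
  {u : X₁ → X} {x : X} {z : X₁}

/-- the Jacobian determinant in the coordinates `Ξ`, `Θ` -/
abbrev jc (u : X₁ → X) (Ξ : Chart n X₁) (Θ : Chart n X) : X₁ → ℂ := mn (fun y => Θ (u y)) Ξ id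

theorem jac_jc (x₁ : X₁) : jac (Cm n) u x₁ = jc u (chartAt (Cm n) x₁) (chartAt (Cm n) (u x₁)) := by
  funext y
  rw [jac, ContinuousLinearMap.det, ← LinearMap.det_toMatrix']
  rfl

theorem mn_self {Θ : Chart n X} (h : Ca Θ x) : mn Θ Θ id x = 1 := by
  have h1 : mn Θ Θ id x = LinearMap.det (dv Θ Θ x : Cm n →ₗ[ℂ] Cm n) := by
    rw [← LinearMap.det_toMatrix']
    rfl
  have h2 : dv Θ Θ x = ContinuousLinearMap.id ℂ _ :=
    (EventuallyEq.fderiv_eq (f := id) (Θ.eventually_right_inverse (Θ.map_source h.2))).trans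
      fderiv_id
  rw [h1, h2]
  exact LinearMap.det_id

theorem mn_unit {Θ Θ' : Chart n X} (h : Ca Θ x) (h' : Ca Θ' x) : mn Θ Θ' id x ≠ 0 :=
  left_ne_zero_of_mul_eq_one
    ((mn_left (f := fun y => y) h h' (holM_id.at x) h.anV id).symm.trans (mn_self h))

theorem jc_chg {Ξ Ξ' : Chart n X₁} {Θ Θ' : Chart n X} (hu : HolA n n u z) (h1 : Ca Ξ z)
    (h2 : Ca Ξ' z) (h3 : Ca Θ (u z)) (h4 : Ca Θ' (u z)) :
    ∃ c, Hol n c z ∧ c z ≠ 0 ∧ ∀ᶠ y in 𝓝 z, jc u Ξ Θ y = c y * jc u Ξ' Θ' y := by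
  refine ⟨fun y => mn Θ Θ' id (u y) * mn Ξ' Ξ id y, (hu.hol (hol_mn h4 h3.anV id)).mul
    (hol_mn h1 h2.anV id), mul_ne_zero (mn_unit h3 h4) (mn_unit h2 h1), ?_⟩
  filter_upwards [hu.near, h1.near, h2.near, hu.cont.eventually h3.near,
    hu.cont.eventually h4.near] with y a1 a2 a3 a4 a5
  rw [jc, mn_left a2 a5 a1 a4.anV, mn_left (f := fun y => y) (F := fun y => Θ' (u y)) a2 a3
    (holM_id.at y) (anV_comp a1 a5.anV)]
  ring

theorem jc_hol {Ξ : Chart n X₁} {Θ : Chart n X} (hu : HolA n n u z) (h1 : Ca Ξ z)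
    (h3 : Ca Θ (u z)) : Hol n (jc u Ξ Θ) z := hol_mn h1 (anV_comp hu h3.anV) id

theorem jc_ne {Ξ : Chart n X₁} {Θ : Chart n X} (h1 : At Ξ z) (h3 : At Θ (u z))
    (hi : Imm n n u z) : jc u Ξ Θ z ≠ 0 := Md.mn_ne_iff.2 (hi _ _ h1 h3)

variable {κ : Type} [Fintype κ] {G : κ → Set X₁} {ζ : κ → X₁ → ℂ} {b c : X₁ → ℂ} {r : κ → ℕ}
  {l : κ}

/-- a monomial at the general points of a component -/
theorem mon_pt (hG : Snc n G) (hζ : ∀ l, LEq n (G l) z (ζ l)) (hc : Hol n c z) (h0 : c z ≠ 0)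
    (ev : ∀ᶠ y in 𝓝 z, b y = c y * ∏ l, ζ l y ^ r l) (hl : z ∈ G l) :
    ∃ᶠ w in 𝓝 z, w ∈ G l ∧ LEq n (G l) w (ζ l) ∧
      ∃ c', Hol n c' w ∧ c' w ≠ 0 ∧ ∀ᶠ y in 𝓝 w, b y = c' y * ζ l y ^ r l := by
  classical
  refine ((Hp.genp hG hl).and_eventually ((eventually_all.2 fun l => (hζ l).near).and
    (hc.near.and ((hc.ne_near h0).and ev.eventually_nhds)))).mono ?_
  rintro w ⟨⟨a1, a2⟩, a3, a4, a5, a6⟩
  refine ⟨a1, a3 l, fun y => c y * ∏ l' ∈ Finset.univ.erase l, ζ l' y ^ r l',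
    a4.mul (Hol.prod _ fun l' _ => (a3 l').hol.pow _), mul_ne_zero a5 (Finset.prod_ne_zero_iff.2
      fun l' m => pow_ne_zero _ (mt (a3 l').mem.1 (a2 l' (Finset.mem_erase.1 m).1))),
    a6.mono fun y m => ?_⟩
  rw [m, ← Finset.mul_prod_erase _ _ (Finset.mem_univ l)]
  ring

theorem mon_bd (hζ : ∀ l, LEq n (G l) z (ζ l)) (hc : Hol n c z)
    (ev : ∀ᶠ y in 𝓝 z, b y = c y * ∏ l, ζ l y ^ r l) : BdP n id G (fun l => -(r l : ℝ)) b z := by
  simpa using ((bdP_mono continuousAt_id hζ fun l => (r l : ℤ)).cmul hc.cont).congr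
    (u' := b) (ev.mono fun y m _ => by simpa using m)

theorem mon_bd_inv (hζ : ∀ l, LEq n (G l) z (ζ l)) (hc : Hol n c z) (h0 : c z ≠ 0)
    (ev : ∀ᶠ y in 𝓝 z, b y = c y * ∏ l, ζ l y ^ r l) :
    BdP n id G (fun l => (r l : ℝ)) (fun y => (b y)⁻¹) z := by
  simpa using ((bdP_mono continuousAt_id hζ fun l => -(r l : ℤ)).cmul (hc.inv h0).cont).congr
    (u' := fun y => (b y)⁻¹) (ev.mono fun y m _ => by simp [m, mul_comm])

variable [T2Space X₁] [SecondCountableTopology X₁] [ConnectedSpace X₁] {D : Set X} {g : X → ℂ}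

/-- the pull-back of a local equation is a monomial, whose exponents are the orders -/
theorem mon_pull (hu : HolM n n u) (hs : Surjective u) (hG : Snc n G)
    (hc : ∀ l, IsConnected (G l)) (hD : J.IsPrime (Cm n) D) (ho : ∀ y ∈ off G, u y ∉ D)
    (hg : J.IsLocalEq (Cm n) D g (u z)) :
    BdP n id G (fun l => -(ord (Cm n) (Cm n) u (G l) D : ℝ)) (fun y => g (u y)) z ∧
      BdP n id G (fun l => (ord (Cm n) (Cm n) u (G l) D : ℝ)) (fun y => (g (u y))⁻¹) z := by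
  obtain ⟨ζ, hζ, -⟩ := hG z
  have hz := hu.cont.continuousAt (x := z)
  obtain ⟨r, c, c1, c2, c3⟩ := Hp.mon hG hζ (hu.hol (loc_hol hg))
    ((hz.eventually (loc_ev hg)).mono fun y m k k' => ho y k (m.1 k'))
  have h1 : ∀ l, z ∈ G l → ord (Cm n) (Cm n) u (G l) D = r l := fun l hl => by
    obtain ⟨w, ⟨a1, a2, c', a3, a4, a5⟩, a6⟩ :=
      ((mon_pt hG hζ c1 c2 c3 hl).and_eventually (hz.eventually (loc_near hg))).exists
    exact ord_eq hu hs (isPrime_of_hy (Ml.hy_of_snc hG l) (hc l)) hD a1 (isLocalEq_of_leq a2) a6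
      a3 a4 a5
  exact ⟨(mon_bd hζ c1 c3).mono continuousAt_id fun l hl => by rw [h1 l hl],
    (mon_bd_inv hζ c1 c2 c3).mono continuousAt_id fun l hl => by rw [h1 l hl]⟩

omit [ConnectedSpace X₁] in
/-- the Jacobian is a monomial -/
theorem mon_jac (hu : HolM n n u) (hG : Snc n G) (ho : ∀ y ∈ off G, Imm n n u y)
    {Ξ : Chart n X₁} {Θ : Chart n X} (h1 : At Ξ z) (h2 : At Θ (u z)) :
    ∃ β : κ → ℕ, BdP n id G (fun l => -(β l : ℝ)) (jc u Ξ Θ) z ∧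
      ∀ l, z ∈ G l → IsJacOrd (Cm n) u (G l) (β l) := by
  obtain ⟨ζ, hζ, -⟩ := hG z
  have hz := hu.cont.continuousAt (x := z)
  have h3 := (at_near h1).and (hz.eventually (at_near h2))
  obtain ⟨r, c, c1, c2, c3⟩ := Hp.mon hG hζ (jc_hol (hu.at z) (ca_of h1) (ca_of h2))
    (h3.mono fun y m k => jc_ne m.1 m.2 (ho y k))
  refine ⟨r, mon_bd hζ c1 c3, fun l hl => ?_⟩
  obtain ⟨w, ⟨a1, a2, c', a3, a4, a5⟩, a6, a7⟩ :=
    ((mon_pt hG hζ c1 c2 c3 hl).and_eventually h3).exists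
  obtain ⟨d, d1, d2, d3⟩ := jc_chg (hu.at w) (ca_of (at_chart w)) (ca_of a6)
    (ca_of (at_chart (u w))) (ca_of a7)
  refine ⟨w, a1, ζ l, fun y => d y * c' y, isLocalEq_of_leq a2, hol_iff.1 (d1.mul a3),
    mul_ne_zero d2 a4, ?_⟩
  filter_upwards [a5, d3] with y m1 m2
  rw [jac_jc, m2, m1]
  ring

theorem enn_le {a b : ℝ} {k : ℕ} (ha : 0 ≤ a) (ha' : a ≤ 1) (hb : 0 ≤ b) (hb' : b ≤ 1)
    (h : 1 / (1 - ENNReal.ofReal b) ≤ k * (1 / (1 - ENNReal.ofReal a))) : 1 - a ≤ k * (1 - b) := by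
  rcases ha'.eq_or_lt with rfl | ha'
  · simpa using mul_nonneg (Nat.cast_nonneg k) (sub_nonneg.2 hb')
  have h1 : ∀ {t : ℝ}, 0 ≤ t → 1 - ENNReal.ofReal t = ENNReal.ofReal (1 - t) := fun ht => by
    rw [ENNReal.ofReal_sub 1 ht, ENNReal.ofReal_one]
  have h2 : ENNReal.ofReal (1 - a) ≠ 0 := by simpa using ha'
  rw [h1 ha, h1 hb, one_div, one_div, ← div_eq_mul_inv,
    ENNReal.le_div_iff_mul_le (.inl h2) (.inl ENNReal.ofReal_ne_top)] at h
  rcases hb'.eq_or_lt with rfl | hb'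
  · rw [sub_self, ENNReal.ofReal_zero, ENNReal.inv_zero, ENNReal.top_mul h2] at h
    exact absurd (top_le_iff.1 h) (ENNReal.natCast_ne_top k)
  have h3 : ENNReal.ofReal (1 - b) ≠ 0 := by simpa using hb'
  rw [mul_comm, ← div_eq_mul_inv, ENNReal.div_le_iff h3 ENNReal.ofReal_ne_top,
    ← ENNReal.ofReal_natCast, ← ENNReal.ofReal_mul (Nat.cast_nonneg k)] at h
  exact (ENNReal.ofReal_le_ofReal_iff (mul_nonneg (Nat.cast_nonneg k) (sub_pos.2 hb').le)).1 h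

end Vale.Agent.N281
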