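import Vale.Agent.N281.Push

/-!
# N281: pluricanonical forms of a fibre are pulled back to the fibre of a log resolution
-/

open scoped Manifold ContDiff ENNReal
open Filter Topology Set Function
open Vale.Agent.P272.K (Chart At jacM)
open Vale.Agent.P285.H281.FD
open Vale.Agent.P277Z Vale.Agent.P281 Vale.Agent.P281Z Vale.Agent.P281Z.Nt Vale.Agent.P281V55
open Vale.Agent.P277Z.Slc (Ind LEq Snc isLB_can)
open Vale.Agent.P281.H713.TZ.S (Cm kodX)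
open Vale.Agent.P281Z.Md

set_option linter.unusedSectionVars false

noncomputable section

namespace Vale.Agent.N281

variable {n p d m j : ℕ} {X X₁ Y F F₁ : Type} [TopologicalSpace X] [ChartedSpace (Cm n) X]
  [TopologicalSpace X₁] [ChartedSpace (Cm n) X₁] [TopologicalSpace Y] [ChartedSpace (Cm p) Y]
  [TopologicalSpace F] [ChartedSpace (Cm d) F] [TopologicalSpace F₁] [ChartedSpace (Cm d) F₁]
  [IsManifold 𝓘(ℂ, Cm n) ω X] [IsManifold 𝓘(ℂ, Cm n) ω X₁] [IsManifold 𝓘(ℂ, Cm p) ω Y]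
  [IsManifold 𝓘(ℂ, Cm d) ω F] [IsManifold 𝓘(ℂ, Cm d) ω F₁] {u : X₁ → X} {f : X → Y} {i : F → X}
  {i₁ : F₁ → X₁} {w : F₁ → F} {x : F₁} {c : Chart d F} {c₁ : Chart d F₁} {e : Chart n X}
  {e₁ : Chart n X₁} {e' : Chart p Y}

theorem jc_dfM (z : X₁) : jc u e₁ e z = (dfM u e₁ e z).det := minor_eq (f := u) id

theorem jac_th (σ : Fin p ⊕ Fin d ≃ Fin n) (hw : ∀ z, i (w z) = u (i₁ z)) (h0 : HolA d d w x)
    (hu : HolA n n u (i₁ x)) (h : FibA n p d f i (w x)) (h₁ : FibA n p d (fun z => f (u z)) i₁ x)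
    (hc : At c (w x)) (hc₁ : At c₁ x) (he : At e (u (i₁ x))) (he₁ : At e₁ (i₁ x))
    (he' : At e' (f (u (i₁ x)))) :
    jc w c₁ c x * th σ f i e' c e (w x) =
      th σ (fun z => f (u z)) i₁ e' c₁ e₁ x * jc u e₁ e (i₁ x) := by
  have hE : At e (i (w x)) := (hw x).symm ▸ he
  obtain ⟨R, -, h2⟩ := h.linv hc hE
  have h3 := h.spec σ hc hE ((hw x).symm ▸ he') (R (w x))
  have h4 := h₁.spec σ hc₁ he₁ he' (R (w x) * dfM u e₁ e (i₁ x))
  rw [h2.self_of_nhds, Matrix.det_one, hw] at h3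
  rw [dfM_comp ((hw x) ▸ h.hf) hu he₁ he he', detR_mul, Matrix.mul_assoc,
    ← dfM_comp hu h₁.hi hc₁ he₁ he, ← funext hw, dfM_comp h.hi h0 hc₁ hc hE, ← Matrix.mul_assoc,
    h2.self_of_nhds, Matrix.one_mul] at h4
  rw [jc_dfM, jc_dfM, ← h4]
  linear_combination (th σ (fun z => f (u z)) i₁ e' c₁ e₁ x * (dfM u e₁ e (i₁ x)).det) * h3

theorem jac_fib (σ : Fin p ⊕ Fin d ≃ Fin n) (hw : ∀ z, i (w z) = u (i₁ z)) (h0 : HolA d d w x)
    (hu : HolA n n u (i₁ x)) (h : FibA n p d f i (w x)) (h₁ : FibA n p d (fun z => f (u z)) i₁ x)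
    (hc : At c (w x)) (hc₁ : At c₁ x) (he : At e (u (i₁ x))) (he₁ : At e₁ (i₁ x)) :
    ∃ a : F₁ → ℂ, ContinuousAt a x ∧ ∀ᶠ z in 𝓝 x, jc w c₁ c z = a z * jc u e₁ e (i₁ z) := by
  have he' := at_chart (n := p) (f (u (i₁ x)))
  have hE : At e (i (w x)) := (hw x).symm ▸ he
  have hE' : At (chartAt (Cm p) (f (u (i₁ x)))) (f (i (w x))) := (hw x).symm ▸ he'
  have h1 := h0.hol (h.hol σ hc hE hE')
  have h2 := h.ne σ hc hE hE'
  refine ⟨_, ((h₁.hol σ hc₁ he₁ he').div h1 h2).cont, ?_⟩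
  filter_upwards [h0.near, h₁.hi.cont.eventually hu.near, h0.cont.eventually h.near, h₁.near,
    h0.cont.eventually (at_near hc), at_near hc₁, h₁.hi.cont.eventually (hu.cont.eventually
      (at_near he)), h₁.hi.cont.eventually (at_near he₁), h₁.cst, h1.ne_near h2]
    with z a1 a2 a3 a4 a5 a6 a7 a8 a9 a10
  rw [div_mul_eq_mul_div, eq_div_iff a10]
  exact jac_th σ hw a1 a2 a3 a4 a5 a6 a7 a8 (a9.symm ▸ he')

variable {Δ : Set X → ℝ} [Fintype {D : Set X | Δ D ≠ 0}] {k : Set X → ℕ} {s : F → ℂ} {z : F}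

theorem sec_eq (hm : 0 < m) (hk : ∀ D, (k D : ℝ) = m * Δ D) (hi : HolM d n i)
    (h : J.IsSection (Cm d) (eqR (Cm n) i) m k s) (hc : At c z) :
    ∃ (g : {D : Set X | Δ D ≠ 0} → X → ℂ) (b : F → ℂ),
      (∀ l, J.IsLocalEq (Cm n) l.1 (g l) (i z)) ∧ Hol d b z ∧ ∀ᶠ y in 𝓝 z, i y ∈ offS Δ →
        Tp.fr m s c y = b y * (∏ l, g l (i y) ^ k l)⁻¹ := by
  classical
  obtain ⟨T, g, b, h1, h2, h3, h4⟩ := Tp.sec_loc h hc
  choose! g' h5 h6 using h2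
  have h7 : ∀ l : {D : Set X | Δ D ≠ 0}, l.1 ∈ T := fun l => h1 _ ((k_ne hm hk _).2 l.2)
  refine ⟨fun l => g' l, b, fun l => h5 _ (h7 l), h3, ?_⟩
  filter_upwards [h4, T.eventually_all.2 h6, hi.cont.continuousAt.eventually
    (eventually_all.2 fun l => loc_near (h5 _ (h7 l)))] with y k1 k2 k3 k4
  have k5 : ∏ D ∈ T, g D y ^ k D = ∏ l : {D : Set X | Δ D ≠ 0}, g' l (i y) ^ k l := by
    rw [Finset.prod_congr rfl fun D hD => by rw [k2 D hD], ← Finset.prod_subtype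
      (p := fun D => D ∈ {D : Set X | Δ D ≠ 0}) (T.filter fun D => Δ D ≠ 0) (fun D => ⟨fun c => (Finset.mem_filter.1 c).2,
        fun c => Finset.mem_filter.2 ⟨h7 ⟨D, c⟩, c⟩⟩) fun D => g' D (i y) ^ k D,
      Finset.prod_filter_of_ne fun D _ c => (k_ne hm hk D).1 fun c' => c (by rw [c', pow_zero])]
  have k6 := (prod_ne hm hk k3).2 k4
  rw [k5] at k1
  rw [← k1 k6, mul_inv_cancel_right₀ k6]

theorem sec_ten (hΔ : IsBoundary (Cm n) Δ) (hm : 0 < m) (hk : ∀ D, (k D : ℝ) = m * Δ D)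
    (hi : HolM d n i) (h : J.IsSection (Cm d) (eqR (Cm n) i) m k s) :
    Ten m (i ⁻¹' offS Δ) (Tp.fr m s : Chart d F → F → ℂ) := by
  refine ⟨fun c z hc hz => ?_, fun c c' z a a' _ => Tp.fr_chg a a'⟩
  obtain ⟨g, b, h1, h2, h3⟩ := sec_eq hm hk hi h hc
  refine (h2.mul ((Hol.prod _ fun l _ => (hi.hol (loc_hol (h1 l))).pow (k l)).inv
    ((prod_ne hm hk h1).2 hz))).congr ?_
  filter_upwards [h3, hi.cont.continuousAt.eventually ((offS_open hΔ).mem_nhds hz)] with y a a'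
    using (a a').symm

variable {κ : Type} [Fintype κ] {G : κ → Set X₁} {δ : κ → ℝ}

theorem pull_kap (σ : Fin p ⊕ Fin d ≃ Fin n) (hΔ : IsBoundary (Cm n) Δ) (hu : HolM n n u)
    (hw : ∀ z, i (w z) = u (i₁ z)) (h0 : WM d w) (hi : HolM d n i) (hi₁ : HolM d n i₁)
    (h : ∀ z, FibA n p d f i z) (h₁ : ∀ z, FibA n p d (fun z => f (u z)) i₁ z)
    (hG : Snc d fun l => i₁ ⁻¹' G l) (ho : ∀ y ∈ off G, u y ∈ offS Δ)
    (hb : ∀ (m : ℕ) (k : Set X → ℕ), (∀ D, (k D : ℝ) = m * Δ D) →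
      ∀ x (g : {D : Set X | Δ D ≠ 0} → X → ℂ), (∀ l, J.IsLocalEq (Cm n) l.1 (g l) (u (i₁ x))) →
      BdP n id G (fun l => m * δ l) (fun y => jc u (chartAt (Cm n) (i₁ x))
        (chartAt (Cm n) (u (i₁ x))) y ^ m * (∏ l, g l (u y) ^ k l)⁻¹) (i₁ x))
    (H : ∃ (m : ℕ) (k : Set X → ℕ) (s : ℕ → F → ℂ) (z : F), 0 < m ∧ (∀ D, (k D : ℝ) = m * Δ D) ∧
      (∀ b, J.IsSection (Cm d) (eqR (Cm n) i) m k (s b)) ∧
      (∀ D, k D ≠ 0 → ∃ g : F → ℂ, eqR (Cm n) i D z g ∧ g z ≠ 0) ∧ s 0 z ≠ 0 ∧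
      Surjective fun (ξ : Cm d) (b : Fin j) => J.dif (Cm d) (fun w => s (b + 1) w / s 0 w) z ξ) :
    KapL d n i₁ (Bd.can d F₁) G δ j := by
  obtain ⟨m, k, s, z, hm, hk, h3, h4, h5, h6⟩ := H
  have hz : i z ∈ offS Δ := fun l c => by
    obtain ⟨g, ⟨e, k1, k2⟩, k3⟩ := h4 l ((k_ne hm hk _).2 l.2)
    exact k3 (k2.self_of_nhds.trans ((loc_mem k1).2 c))
  have hO := (offS_open hΔ).preimage hi.cont
  have t0 := fun b => sec_ten hΔ hm hk hi (h3 b)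
  have hp : ∀ y, i₁ y ∈ off G → w y ∈ i ⁻¹' offS Δ := fun y a => by
    rw [mem_preimage, hw]
    exact ho _ a
  have t1 := fun b => (t0 b).pb (O₁ := i₁ ⁻¹' off G) hO fun y a => ⟨hp y a, h0.hol.at y⟩
  refine ⟨m, hm, fun b : Fin (j + 1) => pb w m (Tp.fr m (s b)), fun b => ⟨fun c y _ =>
    (t1 b).hol c y, fun c c' y _ => (t1 b).chg c c' y, fun c₁ x _ hc₁ => ?_⟩,
    rk_pull h0 (fun b => t0 b) hO (snc_open_off hG) (snc_dense_off hG)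
      ⟨z, hz, Tp.rk_of (fun b => (t0 b).hol _ z (at_chart z) hz) h5 h6⟩⟩
  have hc := at_chart (n := d) (w x)
  obtain ⟨g, a, a1, a2, a3⟩ := sec_eq hm hk hi (h3 b) hc
  obtain ⟨q, q1, q2⟩ := jac_fib σ hw (h0.hol.at x) (hu.at _) (h _) (h₁ x) hc hc₁ (at_chart _)
    (at_chart _)
  refine (((hb m k hk x g (hw x ▸ a1)).comp hi₁.cont.continuousAt).cmul
    ((h0.hol.hol a2).cont.mul (q1.pow m))).congr ?_
  filter_upwards [pb_ev (t0 b) (h0.hol.at x) hc₁ hc, h0.hol.cont.continuousAt.eventually a3, q2]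
    with y b1 b2 b3 b4
  rw [b1 (hp y b4), b2 (hp y b4), show mn (fun z => chartAt (Cm d) (w x) (w z)) c₁ id y = _ from b3,
    hw]
  simp only [Pi.mul_apply, Pi.pow_apply]
  ring

end Vale.Agent.N281
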