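import Vale.Agent.N281.Lc

/-!
# N281: pluricanonical forms are pushed forward by a modification
-/

open scoped Manifold ContDiff ENNReal
open Filter Topology Set Function
open Vale.Agent.P272.K (Chart At jacM)
open Vale.Agent.P285.H281.FD
open Vale.Agent.P277Z Vale.Agent.P281 Vale.Agent.P281Z Vale.Agent.P281Z.Nt Vale.Agent.P281V55
open Vale.Agent.P277Z.Slc (Ind LEq Snc isLB_can)
open Vale.Agent.P281.H713.TZ.S (Cm kodX)
open Vale.Agent.P281Z.Md

set_option linter.unusedSectionVars false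

noncomputable section

namespace Vale.Agent.N281

variable {n m j : ℕ} {X X₁ : Type} [TopologicalSpace X] [ChartedSpace (Cm n) X]
  [TopologicalSpace X₁] [ChartedSpace (Cm n) X₁] [IsManifold 𝓘(ℂ, Cm n) ω X]
  [IsManifold 𝓘(ℂ, Cm n) ω X₁] {u : X₁ → X} {Δ : Set X → ℝ} [Fintype {D : Set X | Δ D ≠ 0}]
  {k : Set X → ℕ} {x : X}

/-- the complement of the support -/
abbrev offS (Δ : Set X → ℝ) : Set X := off fun l : {D : Set X | Δ D ≠ 0} => l.1

theorem offS_open (hΔ : IsBoundary (Cm n) Δ) : IsOpen (offS Δ) :=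
  isOpen_iff_mem_nhds.2 fun _ hx => eventually_all.2 fun l =>
    (hΔ.2.1 _ l.2).1.isOpen_compl.mem_nhds (hx l)

theorem k_ne (hm : 0 < m) (hk : ∀ D, (k D : ℝ) = m * Δ D) (D : Set X) : k D ≠ 0 ↔ Δ D ≠ 0 := by
  rw [← Nat.cast_ne_zero (R := ℝ), hk, mul_ne_zero_iff_left (Nat.cast_ne_zero.2 hm.ne')]

theorem prod_ne (hm : 0 < m) (hk : ∀ D, (k D : ℝ) = m * Δ D) {g : {D : Set X | Δ D ≠ 0} → X → ℂ}
    (hg : ∀ l, J.IsLocalEq (Cm n) l.1 (g l) x) : ∏ l, g l x ^ k l ≠ 0 ↔ x ∈ offS Δ :=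
  ⟨fun h l c => Finset.prod_ne_zero_iff.1 h l (Finset.mem_univ l) (by
      rw [(loc_mem (hg l)).2 c, zero_pow ((k_ne hm hk _).2 l.2)]),
    fun h => Finset.prod_ne_zero_iff.2 fun l _ => pow_ne_zero _ (mt (loc_mem (hg l)).1 (h l))⟩

theorem le_kod (hΔ : IsBoundary (Cm n) Δ) (hm : 0 < m) (hk : ∀ D, (k D : ℝ) = m * Δ D)
    {t : Fin (j + 1) → Chart n X → X → ℂ} (h1 : ∀ b, Ten m (offS Δ) (t b))
    (h2 : ∀ b y (g : {D : Set X | Δ D ≠ 0} → X → ℂ), (∀ l, J.IsLocalEq (Cm n) l.1 (g l) y) →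
      ∃ a, Hol n a y ∧ ∀ᶠ w in 𝓝 y, w ∈ offS Δ →
        a w = t b (chartAt (Cm n) y) w * ∏ l, g l w ^ k l)
    (hx : x ∈ offS Δ) (hr : RkAt n ((Bd.can n X).pow m) t x) :
    (j : WithBot ℕ∞) ≤ kodX (Cm n) Δ := by
  obtain ⟨e, he, h2', h3⟩ := hr
  have hk0 := k_ne hm hk
  choose! g hg using fun y D hD => (hΔ.2.1 D hD).2.1 y
  have h4 : ∀ b, ∀ᶠ w in 𝓝 x, t b (chartAt (Cm n) w) w =
      (jacM (chartAt (Cm n) w) e w).det ^ m * t b e w := fun b => by
    filter_upwards [at_near he, (offS_open hΔ).mem_nhds hx] with w k1 k2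
      using (h1 b).chg _ _ w (at_chart w) k1 k2
  refine le_iSup₂_of_le j ⟨m, k, fun b w => t (Fin.ofNat (j + 1) b) (chartAt (Cm n) w) w, x, hm, hk,
    fun b y => ?_, fun D hD => ⟨_, hg x D ((hk0 D).1 hD), fun c => hx ⟨D, (hk0 D).1 hD⟩
      ((loc_mem (hg x D ((hk0 D).1 hD))).1 c)⟩, ?_, ?_⟩ le_rfl
  · have hc := at_chart (n := n) y
    have hζ : ∀ l : {D : Set X | Δ D ≠ 0}, J.IsLocalEq (Cm n) l.1 (g y l) y := fun l => hg y _ l.2
    obtain ⟨a, k1, k2⟩ := h2 (Fin.ofNat _ b) y (fun l => g y l) hζ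
    refine ⟨hΔ.1.toFinset, g y, a, fun D c => hΔ.1.mem_toFinset.2 ((hk0 D).1 c),
      fun D c => hg y D (hΔ.1.mem_toFinset.1 c), hol_iff.1 k1, ?_⟩
    filter_upwards [k2, at_near hc, eventually_all.2 fun l => loc_near (hζ l)] with w k3 k4 k5 k6
    rw [Finset.prod_subtype (p := fun D => D ∈ {D : Set X | Δ D ≠ 0}) _
      fun D => hΔ.1.mem_toFinset] at k6 ⊢
    have k7 := (prod_ne hm hk k5).1 k6
    rw [k3 k7, Tp.det_mfd k4, (h1 _).chg _ _ w (at_chart w) k4 k7]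
    exact (mul_assoc _ _ _).trans (mul_comm _ _)
  · exact (h4 0).self_of_nhds.trans_ne (mul_ne_zero (Tp.jac_ne (at_chart x) he) h2')
  · have h5 : ∀ b : Fin j, ∀ᶠ w in 𝓝 x, t b.succ e w / t 0 e w =
        t (Fin.ofNat (j + 1) (b + 1)) (chartAt (Cm n) w) w / t 0 (chartAt (Cm n) w) w := fun b => by
      rw [show Fin.ofNat (j + 1) (b + 1) = b.succ from Fin.ext (Nat.mod_eq_of_lt b.succ.2)]
      filter_upwards [h4 b.succ, h4 0, at_near he] with w k1 k2 k3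
      rw [k1, k2, mul_div_mul_left _ _ (Tp.jac_ne (at_chart w) k3)]
    have h6 := ind_congr h3 h5
    exact (ind_iff h6.1).1 h6

variable {κ : Type} [Fintype κ] {G : κ → Set X₁}

theorem push_kod (hu : WM n u) (hN : Har n (u '' {x | ¬ Imm n n u x})) (hG : Snc n G)
    (hΔ : IsBoundary (Cm n) Δ) (hm : 0 < m) (hk : ∀ D, (k D : ℝ) = m * Δ D)
    (ho : ∀ y ∈ off G, u y ∈ offS Δ) {s : Fin (j + 1) → Chart n X₁ → X₁ → ℂ}
    (h : ∀ b, Ten m (off G) (s b))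
    (hb : ∀ b y (g : {D : Set X | Δ D ≠ 0} → X → ℂ), Imm n n u y →
      (∀ l, J.IsLocalEq (Cm n) l.1 (g l) (u y)) →
      Bnd (off G) (fun z => ‖s b (chartAt (Cm n) y) z * ∏ l, g l (u z) ^ k l‖) y)
    {y : X₁} (y1 : Imm n n u y) (y2 : y ∈ off G) (y3 : RkAt n ((Bd.can n X₁).pow m) s y) :
    (j : WithBot ℕ∞) ≤ kodX (Cm n) Δ := by
  choose v hv using hu.surj
  set N := u '' {x | ¬ Imm n n u x}
  have v1 : ∀ x ∉ N, Imm n n u (v x) := fun x k => by_contra fun c => k ⟨_, c, hv x⟩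
  have v2 : ∀ x ∉ N, HolA n n v x ∧ Imm n n v x := fun x k => by
    obtain ⟨g, -, g2, g3, -, g5⟩ := (v1 x k).inv (hu.hol.at _)
    rw [hv] at g2 g3 g5
    have e : ∀ᶠ z in 𝓝 x, g z = v z := by
      filter_upwards [g5, hN.closed.isOpen_compl.mem_nhds k] with z a b using
        hu.one _ _ (v1 z b) (a.trans (hv z).symm)
    exact ⟨g2.cng e, g3.cng e⟩
  have v3 : ∀ y, Imm n n u y → u y ∉ N ∧ v (u y) = y := fun y k =>
    ⟨fun ⟨_, a, b⟩ => a (hu.one _ _ k b ▸ k), hu.one _ _ k (hv _)⟩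
  let S : Set X := Nᶜ ∩ v ⁻¹' off G
  have hO := snc_open_off hG
  have s1 : Dense S := (hu.dense_img hO (snc_dense_off hG)).mono
    (by rintro _ ⟨y, a, rfl⟩; exact ⟨(v3 y a.1).1, ((v3 y a.1).2.symm ▸ a.2 : v (u y) ∈ off G)⟩)
  have s2 := fun x => mem_closure_iff_frequently.1 (s1 x)
  have t1 := fun b => (h b).pb (O₁ := S) hO fun x k => ⟨k.2, (v2 x k.1).1⟩
  have key : ∀ b e x (g : {D : Set X | Δ D ≠ 0} → X → ℂ), At e x →
      (∀ l, J.IsLocalEq (Cm n) l.1 (g l) x) → ∃ a, Hol n a x ∧ ∀ᶠ w in 𝓝 x, w ∈ S →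
        a w = pb v m (s b) e w * ∏ l, g l w ^ k l := by
    intro b e x g he hg
    obtain ⟨U, u1, u2, u3⟩ := eventually_nhds_iff.1
      ((at_near he).and (eventually_all.2 fun l => loc_near (hg l)))
    have u4 : ∀ w ∈ U, w ∈ S → Hol n (fun w => pb v m (s b) e w * ∏ l, g l w ^ k l) w :=
      fun w a c => ((t1 b).hol e w (u1 w a).1 c).mul
        (Hol.prod _ fun l _ => (loc_hol ((u1 w a).2 l)).pow _)
    obtain ⟨s', a1, a2⟩ := hN.ext U (ext S fun w => pb v m (s b) e w * ∏ l, g l w ^ k l) u2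
      fun w a c => by
        have hc := at_chart (n := n) (v w)
        obtain ⟨H, b1, b2⟩ := riem (S := S) (((gn_off hG _).pre (v2 w c).2 (v2 w c).1).mono
          ((hN.closed.isOpen_compl.eventually_mem c).mono fun _ d1 d2 => ⟨d1, d2⟩))
          ((u2.eventually_mem a).mono u4) ((((hb b (v w) g (v1 w c)
            ((hv w).symm ▸ (u1 w a).2)).comp (v2 w c).1.cont).mul (bnd_cont
              ((hol_mn (ca_of (u1 w a).1) ((v2 w c).1.anV hc) id).cont.norm.pow m))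
              (fun _ => norm_nonneg _) fun _ => pow_nonneg (norm_nonneg _) m).mono
            ((pb_ev (h b) (v2 w c).1 (u1 w a).1 hc).mono fun z d hz => ⟨hz.2, le_of_eq (by
              rw [d hz.2, mul_right_comm, norm_mul, norm_pow, hv]; rfl)⟩))
        exact b1.congr (ext_ev (.of_forall s2) b1 b2)
    refine ⟨s', a1 x u3, (u2.eventually_mem u3).mono fun w a c => (a2 w a c.1).trans ?_⟩
    exact ext_eq (s2 w) (u4 w a c).cont (.of_forall fun _ _ => rfl)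
  have t3 : ∀ b e x, At e x → x ∈ S → ext S (pb v m (s b) e) x = pb v m (s b) e x :=
    fun b e x he k => ext_eq (s2 x) ((t1 b).hol e x he k).cont (.of_forall fun _ _ => rfl)
  have t4 : ∀ b e x (g : {D : Set X | Δ D ≠ 0} → X → ℂ) (a : X → ℂ),
      (∀ l, J.IsLocalEq (Cm n) l.1 (g l) x) → Hol n a x → x ∈ offS Δ → (∀ᶠ w in 𝓝 x, w ∈ S →
        a w = pb v m (s b) e w * ∏ l, g l w ^ k l) → Hol n (ext S (pb v m (s b) e)) x ∧
          a x = ext S (pb v m (s b) e) x * ∏ l, g l x ^ k l := by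
    intro b e x g a hg a1 a2 a3
    have c1 := Hol.prod Finset.univ fun l _ => (loc_hol (hg l)).pow (k l)
    have c2 := (prod_ne hm hk hg).2 a2
    have c3 := a1.div c1 c2
    have c4 := ext_ev (w := pb v m (s b) e) (.of_forall s2) c3 ((a3.and (c1.ne_near c2)).mono
      fun w d c => by rw [d.1 c, mul_div_cancel_right₀ _ d.2])
    exact ⟨c3.congr c4, by rw [← c4.self_of_nhds, div_mul_cancel₀ _ c2]⟩
  have t5 : ∀ b e x, At e x → x ∈ offS Δ → Hol n (ext S (pb v m (s b) e)) x := fun b e x he c => by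
    choose g hg using fun l : {D : Set X | Δ D ≠ 0} => (hΔ.2.1 _ l.2).2.1 x
    obtain ⟨a, a1, a2⟩ := key b e x g he hg
    exact (t4 b e x g a hg a1 c a2).1
  have hL' := lb_pow (isLB_can (n := n) (W := X)) m
  refine le_kod (t := fun b e => ext S (pb v m (s b) e)) hΔ hm hk (fun b => ⟨t5 b,
    fun e e' x he he' k => tendsto_nhds_unique_of_frequently_eq (t5 b e x he k).cont
      ((lb_hol hL' he he').mul (t5 b e' x he' k)).cont (((s2 x).and_eventually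
        ((at_near he).and (at_near he'))).mono fun z a => ?_)⟩) (fun b x g hg => ?_) (ho y y2) ?_
  · rw [t3 b e z a.2.1 a.1, t3 b e' z a.2.2 a.1]
    exact (t1 b).chg e e' z a.2.1 a.2.2 a.1
  · obtain ⟨a, a1, a2⟩ := key b _ x g (at_chart x) hg
    refine ⟨a, a1, ?_⟩
    filter_upwards [a1.near, a2.eventually_nhds, eventually_all.2 fun l => loc_near (hg l)]
      with w c1 c2 c3 c4 using (t4 b _ w g a c3 c1 c4 c2).2
  · obtain ⟨a1, a2⟩ := v3 y y1
    have a3 : off G ∈ 𝓝 (v (u y)) := hO.mem_nhds (a2.symm ▸ y2)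
    obtain ⟨a, b1, b2, b3⟩ := rk_pb h a3 (v2 _ a1).1 (v2 _ a1).2 (by rw [a2]; exact y3)
    refine rkAt_of (L := (Bd.can n X).pow m) (L' := (Bd.can n X).pow m) (s := fun b => pb v m (s b))
      (s' := fun b e => ext S (pb v m (s b) e)) (a := a) (a' := a) b2 b3 b1 (w := fun _ => 1) ?_
    filter_upwards [at_near b1, hN.closed.isOpen_compl.mem_nhds a1, (v2 _ a1).1.cont.eventually a3]
      with z c1 c2 c3 using ⟨one_ne_zero, fun b => (t3 b a z c1 ⟨c2, c3⟩).trans (one_mul _).symm⟩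

end Vale.Agent.N281
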